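import Vale.Agent.P038.H724.Opt
import Vale.Agent.P038.H71.Plan

/-!
# P038 (H724): Seymour's second neighbourhood conjecture
-/

namespace Vale.Agent.P038.H724

open Finset Vale.Agent.P038.H139 Vale.Agent.P038.H38

universe u

variable {V : Type u} [Fintype V]

/-- 294's inequality, strict, for all sets, in an arc-minimal normal form. -/
theorem gs_of_nfmin [DecidableEq V] {D : OGraph V} {w : V → ℝ} (h : NFmin 1 D w) : GS D w := by
  intro S hS
  have h1 : H71.Lx D S = L1 D S := rfl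
  have h2 := H71.plan_lt h S ∅ (by
    rw [h1]
    exact Finset.empty_ssubset.2 hS)
  rw [h1] at h2
  unfold H71.dd at h2
  have e0 : cl D (∅ : Finset V) \ S = ∅ := by
    ext z
    simp [mem_cl]
  have e1 : cl D (L1 D S) \ S = L1 D S ∪ L2 D S := by
    ext z
    rw [Finset.mem_sdiff, Finset.mem_union, mem_L2, mem_L1']
    constructor
    · rintro ⟨h3, h4⟩
      rcases mem_cl.1 h3 with h3 | ⟨y, hy, h3⟩
      · exact Or.inl (mem_L1'.1 h3)
      · by_cases h5 : z ∈ cl D S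
        · exact Or.inl ⟨h5, h4⟩
        · exact Or.inr ⟨mem_cl.2 (Or.inr ⟨y, (mem_L1'.1 hy).1, h3⟩), h5⟩
    · rintro (⟨h3, h4⟩ | ⟨h3, h4⟩)
      · exact ⟨mem_cl.2 (Or.inl (mem_L1'.2 ⟨h3, h4⟩)), h4⟩
      · rcases mem_cl.1 h3 with h3 | ⟨y, hy, h3⟩
        · exact absurd h3 h4
        · refine ⟨mem_cl.2 (Or.inr ⟨y, mem_L1'.2 ⟨hy, fun hyS => ?_⟩, h3⟩),
            fun h5 => h4 (subset_cl D S h5)⟩
          exact h4 (mem_cl.2 (Or.inr ⟨y, hyS, h3⟩))
  have hd : Disjoint (L1 D S) (L2 D S) := by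
    rw [Finset.disjoint_left]
    intro z hz hz'
    exact (mem_L2.1 hz').2 (mem_L1'.1 hz).1
  rw [e0, e1, W_union hd] at h2
  have e2 : W w (∅ : Finset V) = 0 := by simp [W]
  rw [e2] at h2
  linarith

theorem no_nf [Nonempty V] (D : OGraph V) (w : V → ℝ) : ¬ NF 1 D w := by
  classical
  intro h
  obtain ⟨D', w', h'⟩ := exists_nfmin h
  exact NF.not_opt h'.toNF (gs_of_nfmin h') (opt_all D' w' h'.toNF.pos)

/-- **Seymour's second neighbourhood conjecture**, weighted form. -/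
theorem seymour_weighted [Nonempty V] (D : OGraph V) (w : V → ℝ) (hw : ∀ v, 0 ≤ w v) :
    ∃ v, ∑ u ∈ N1 D v, w u ≤ ∑ u ∈ N2 D v, w u := by
  obtain ⟨v, hv⟩ := snc_of_noNF (lam := 1) zero_le_one (fun V _ _ D w => no_nf D w) D w hw
  exact ⟨v, by rwa [one_mul] at hv⟩

/-- **Seymour's second neighbourhood conjecture.** -/
theorem seymour [Nonempty V] (D : OGraph V) : ∃ v, (N1 D v).card ≤ (N2 D v).card := by
  obtain ⟨v, hv⟩ := seymour_weighted D (fun _ => 1) (fun _ => zero_le_one)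
  refine ⟨v, ?_⟩
  simpa using hv

end Vale.Agent.P038.H724

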