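import Mathlib

/-!
# P038 (H724): two commuting generic matrices

`core` is the inequality `|P| + |R| ≤ |M| + |G|` for a commuting square whose upper map is
injective and whose right map is surjective (both by Hall's theorem).
-/

namespace Vale.Agent.P038.H724

open Finset

/-- A generic matrix supported on `ρ` has nonzero minors at all matchings. -/
theorem exists_generic {β ι : Type*} [Fintype β] [DecidableEq β] [Fintype ι]
    (ρ : β → β → Prop) (S : ι → Type*) [∀ i, Fintype (S i)] [∀ i, DecidableEq (S i)]
    (a m : ∀ i, S i → β) (ha : ∀ i, Function.Injective (a i)) (hm : ∀ i, Function.Injective (m i))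
    (hρ : ∀ i s, ρ (a i s) (m i s)) :
    ∃ F : β → β → ℚ, (∀ x y, F x y ≠ 0 → ρ x y) ∧
      ∀ i, (Matrix.of fun s s' : S i => F (a i s) (m i s')).det ≠ 0 := by
  classical
  let A : ∀ i, Matrix (S i) (S i) (MvPolynomial (β × β) ℚ) := fun i =>
    Matrix.of fun s s' : S i =>
      if ρ (a i s) (m i s') then MvPolynomial.X (a i s, m i s') else 0
  have hP : ∀ i, (A i).det ≠ 0 := by
    intro i h0
    let x : β × β → ℚ := fun q => if ∃ s, a i s = q.1 ∧ m i s = q.2 then 1 else 0
    have h1 : MvPolynomial.eval x (A i).det = 0 := by rw [h0, map_zero]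
    have h2 : MvPolynomial.eval x (A i).det = 1 := by
      rw [RingHom.map_det]
      have h3 : (MvPolynomial.eval x).mapMatrix (A i) = 1 := by
        ext s s'
        rw [RingHom.mapMatrix_apply, Matrix.map_apply, Matrix.one_apply]
        show MvPolynomial.eval x (if ρ (a i s) (m i s') then MvPolynomial.X (a i s, m i s') else 0)
          = _
        by_cases hss : s = s'
        · subst hss
          rw [if_pos (hρ i s), if_pos rfl, MvPolynomial.eval_X]
          exact if_pos ⟨s, rfl, rfl⟩
        · rw [if_neg hss]
          split_ifs with h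
          · rw [MvPolynomial.eval_X]
            refine if_neg ?_
            rintro ⟨t, ht1, ht2⟩
            exact hss ((ha i ht1).symm.trans (hm i ht2))
          · rw [map_zero]
      rw [h3, Matrix.det_one]
    rw [h1] at h2
    exact zero_ne_one h2
  have hprod : ∏ i, (A i).det ≠ 0 := Finset.prod_ne_zero_iff.2 fun i _ => hP i
  obtain ⟨x, hx⟩ : ∃ x : β × β → ℚ, MvPolynomial.eval x (∏ i, (A i).det) ≠ 0 := by
    by_contra h
    push Not at h
    exact hprod (MvPolynomial.funext fun x => by rw [h x, map_zero])
  refine ⟨fun p q => if ρ p q then x (p, q) else 0, fun p q h => ?_, fun i => ?_⟩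
  · by_contra hn
    exact h (if_neg hn)
  · rw [map_prod] at hx
    have h1 := Finset.prod_ne_zero_iff.1 hx i (Finset.mem_univ i)
    rw [RingHom.map_det] at h1
    have h3 : (MvPolynomial.eval x).mapMatrix (A i) =
        (Matrix.of fun s s' : S i => if ρ (a i s) (m i s') then x (a i s, m i s') else 0) := by
      ext s s'
      rw [RingHom.mapMatrix_apply, Matrix.map_apply]
      show MvPolynomial.eval x (if ρ (a i s) (m i s') then MvPolynomial.X (a i s, m i s') else 0)
          = (if ρ (a i s) (m i s') then x (a i s, m i s') else 0)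
      split_ifs
      · rw [MvPolynomial.eval_X]
      · rw [map_zero]
    rw [h3] at h1
    exact h1

theorem sum_ext' {γ : Type*} [Fintype γ] [DecidableEq γ] (P : Finset γ) (v : {x // x ∈ P} → ℚ)
    (g : γ → ℚ) :
    ∑ l : {x // x ∈ P}, g l.1 * v l = ∑ x, g x * (if h : x ∈ P then v ⟨x, h⟩ else 0) := by
  calc ∑ l : {x // x ∈ P}, g l.1 * v l
      = ∑ l : {x // x ∈ P}, (fun x => g x * (if h : x ∈ P then v ⟨x, h⟩ else 0)) l.1 := by
        refine Finset.sum_congr rfl fun l _ => ?_
        show g l.1 * v l = g l.1 * (if h : l.1 ∈ P then v ⟨l.1, h⟩ else 0)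
        rw [dif_pos l.2]
    _ = ∑ x ∈ P, g x * (if h : x ∈ P then v ⟨x, h⟩ else 0) :=
        Finset.sum_coe_sort P (fun x => g x * (if h : x ∈ P then v ⟨x, h⟩ else 0))
    _ = ∑ x, g x * (if h : x ∈ P then v ⟨x, h⟩ else 0) :=
        Finset.sum_subset (Finset.subset_univ _) fun x _ hx => by rw [dif_neg hx, mul_zero]

theorem core {α β : Type*} [Fintype α] [Fintype β] [DecidableEq α] [DecidableEq β]
    (ρ : β → β → Prop) (κ : α → α → Prop) (P R M G : Finset (α × β)) (M0 G0 : α → β → Prop)
    (h1 : ∀ p q q', (p, q) ∈ P → ρ q q' → (p, q') ∈ M ∨ M0 p q')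
    (h2 : ∀ p p' q, M0 p q → κ p p' → (p', q) ∉ R)
    (h3 : ∀ p p' q, (p, q) ∈ P → κ p p' → (p', q) ∈ G ∨ G0 p' q)
    (h4 : ∀ p q q', G0 p q → ρ q q' → (p, q') ∉ R)
    (hr : ∀ p, ∃ m : {q // (p, q) ∈ P} → β, Function.Injective m ∧
      ∀ q, ρ q.1 (m q) ∧ (p, m q) ∈ M)
    (hc : ∀ q, ∃ n : {p // (p, q) ∈ R} → α, Function.Injective n ∧
      ∀ p, κ (n p) p.1 ∧ (n p, q) ∈ M) :
    P.card + R.card ≤ M.card + G.card := by
  classical
  choose m hm1 hm2 using hr
  choose n hn1 hn2 using hc
  obtain ⟨F, hF1, hF2⟩ := exists_generic ρ (fun p : α => {q // (p, q) ∈ P})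
    (fun p s => s.1) (fun p => m p) (fun p => Subtype.val_injective) (fun p => hm1 p)
    (fun p s => (hm2 p s).1)
  obtain ⟨K, hK1, hK2⟩ := exists_generic κ (fun q : β => {p // (p, q) ∈ R})
    (fun q => n q) (fun q s => s.1) (fun q => hn1 q) (fun q => Subtype.val_injective)
    (fun q s => (hn2 q s).1)
  let N : α × β → α := fun x => if h : x ∈ R then n x.2 ⟨x.1, h⟩ else x.1
  have hN : ∀ t q (h : (t, q) ∈ R), N (t, q) = n q ⟨t, h⟩ := fun t q h => dif_pos h
  let T : Matrix ({x // x ∈ M} ⊕ {x // x ∈ G}) ({x // x ∈ P} ⊕ {x // x ∈ R}) ℚ :=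
    Matrix.fromBlocks
      (Matrix.of fun x l => if x.1.1 = l.1.1 then F l.1.2 x.1.2 else 0)
      (Matrix.of fun x t => if x.1.1 = N t.1 ∧ x.1.2 = t.1.2 then 1 else 0)
      (Matrix.of fun g l => if g.1.2 = l.1.2 then K l.1.1 g.1.1 else 0)
      0
  have hinj : Function.Injective (Matrix.mulVecLin T) := by
    rw [← LinearMap.ker_eq_bot, LinearMap.ker_eq_bot']
    intro v hv
    rw [Matrix.mulVecLin_apply] at hv
    let lt : α × β → ℚ := fun x => if h : x ∈ P then v (Sum.inl ⟨x, h⟩) else 0
    let rt : α × β → ℚ := fun x => if h : x ∈ R then v (Sum.inr ⟨x, h⟩) else 0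
    have e1 : ∀ p q', (p, q') ∈ M → ∑ q, F q q' * lt (p, q) +
        ∑ t, (if p = N (t, q') then 1 else 0) * rt (t, q') = 0 := by
      intro p q' hpq
      have h := congrFun hv (Sum.inl ⟨(p, q'), hpq⟩)
      rw [Matrix.mulVec, dotProduct, Fintype.sum_sum_type] at h
      simp only [T, Matrix.fromBlocks_apply₁₁, Matrix.fromBlocks_apply₁₂, Matrix.of_apply,
        Pi.zero_apply] at h
      rw [sum_ext' P (fun l => v (Sum.inl l)) (fun x => if p = x.1 then F x.2 q' else 0),
        sum_ext' R (fun l => v (Sum.inr l)) (fun x => if p = N x ∧ q' = x.2 then 1 else 0),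
        Fintype.sum_prod_type, Fintype.sum_prod_type_right] at h
      refine Eq.trans ?_ h
      congr 1
      · rw [Finset.sum_eq_single p]
        · exact Finset.sum_congr rfl fun q _ => by rw [if_pos rfl]
        · intro p' _ hp'
          exact Finset.sum_eq_zero fun q _ => by rw [if_neg (Ne.symm hp'), zero_mul]
        · intro h'
          exact absurd (Finset.mem_univ _) h'
      · rw [Finset.sum_eq_single q']
        · refine Finset.sum_congr rfl fun t _ => ?_
          congr 1
          by_cases hp : p = N (t, q')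
          · rw [if_pos hp, if_pos ⟨hp, rfl⟩]
          · rw [if_neg hp, if_neg fun h => hp h.1]
        · intro q _ hq
          exact Finset.sum_eq_zero fun t _ => by rw [if_neg fun h => hq h.2.symm, zero_mul]
        · intro h'
          exact absurd (Finset.mem_univ _) h'
    have e2 : ∀ p' q, (p', q) ∈ G → ∑ p, K p p' * lt (p, q) = 0 := by
      intro p' q hpq
      have h := congrFun hv (Sum.inr ⟨(p', q), hpq⟩)
      rw [Matrix.mulVec, dotProduct, Fintype.sum_sum_type] at h
      simp only [T, Matrix.fromBlocks_apply₂₁, Matrix.fromBlocks_apply₂₂, Matrix.of_apply,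
        Pi.zero_apply, Matrix.zero_apply, zero_mul, Finset.sum_const_zero, add_zero] at h
      rw [sum_ext' P (fun l => v (Sum.inl l)) (fun x => if q = x.2 then K x.1 p' else 0),
        Fintype.sum_prod_type_right] at h
      rw [← h, Finset.sum_eq_single q]
      · exact Finset.sum_congr rfl fun p _ => by rw [if_pos rfl]
      · intro q' _ hq'
        exact Finset.sum_eq_zero fun p _ => by rw [if_neg (Ne.symm hq'), zero_mul]
      · intro h'
        exact absurd (Finset.mem_univ _) h'
    -- the square
    have e3 : ∀ p' q', (p', q') ∈ R → ∑ p, K p p' * ∑ q, F q q' * lt (p, q) = 0 := by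
      intro p' q' hR
      have : ∑ p, K p p' * ∑ q, F q q' * lt (p, q) = ∑ q, F q q' * ∑ p, K p p' * lt (p, q) := by
        simp only [Finset.mul_sum]
        rw [Finset.sum_comm]
        refine Finset.sum_congr rfl fun q _ => Finset.sum_congr rfl fun p _ => by ring
      rw [this]
      refine Finset.sum_eq_zero fun q _ => ?_
      by_cases hFq : F q q' = 0
      · rw [hFq, zero_mul]
      have hρq := hF1 q q' hFq
      by_cases hG : (p', q) ∈ G
      · rw [e2 p' q hG, mul_zero]
      · have : ∑ p, K p p' * lt (p, q) = 0 := by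
          refine Finset.sum_eq_zero fun p _ => ?_
          by_contra hne
          have hK0 : K p p' ≠ 0 := fun h => hne (by rw [h, zero_mul])
          have hl0 : (p, q) ∈ P := by
            by_contra h
            exact hne (by rw [show lt (p, q) = 0 from dif_neg h, mul_zero])
          rcases h3 p p' q hl0 (hK1 p p' hK0) with h | h
          · exact hG h
          · exact h4 p' q q' h hρq hR
        rw [this, mul_zero]
    have e4 : ∀ p' q', (p', q') ∈ R →
        ∑ p, K p p' * ∑ t, (if p = N (t, q') then 1 else 0) * rt (t, q') = 0 := by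
      intro p' q' hR
      have hz : ∑ p, K p p' * (∑ q, F q q' * lt (p, q) +
          ∑ t, (if p = N (t, q') then 1 else 0) * rt (t, q')) = 0 := by
        refine Finset.sum_eq_zero fun p _ => ?_
        by_cases hM : (p, q') ∈ M
        · rw [e1 p q' hM, mul_zero]
        by_cases hK0 : K p p' = 0
        · rw [hK0, zero_mul]
        have hM0 : ¬ M0 p q' := fun h => h2 p p' q' h (hK1 p p' hK0) hR
        have s1 : ∑ q, F q q' * lt (p, q) = 0 := by
          refine Finset.sum_eq_zero fun q _ => ?_
          by_contra hne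
          have hF0 : F q q' ≠ 0 := fun h => hne (by rw [h, zero_mul])
          have hl0 : (p, q) ∈ P := by
            by_contra h
            exact hne (by rw [show lt (p, q) = 0 from dif_neg h, mul_zero])
          rcases h1 p q q' hl0 (hF1 q q' hF0) with h | h
          · exact hM h
          · exact hM0 h
        have s2 : ∑ t, (if p = N (t, q') then 1 else 0) * rt (t, q') = 0 := by
          refine Finset.sum_eq_zero fun t _ => ?_
          by_cases ht : (t, q') ∈ R
          · rw [hN t q' ht, if_neg, zero_mul]
            intro h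
            exact hM (h ▸ (hn2 q' ⟨t, ht⟩).2)
          · rw [show rt (t, q') = 0 from dif_neg ht, mul_zero]
        rw [s1, s2, add_zero, mul_zero]
      simp only [mul_add, Finset.sum_add_distrib] at hz
      rw [e3 p' q' hR, zero_add] at hz
      exact hz
    have hr0 : ∀ x, rt x = 0 := by
      rintro ⟨t0, q'⟩
      by_cases ht0 : (t0, q') ∈ R
      swap
      · exact dif_neg ht0
      have hvec : Matrix.vecMul (fun s : {p // (p, q') ∈ R} => rt (s.1, q'))
          (Matrix.of fun s s' : {p // (p, q') ∈ R} => K (n q' s) s'.1) = 0 := by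
        ext s'
        have h := e4 s'.1 q' s'.2
        rw [Matrix.vecMul, dotProduct]
        simp only [Matrix.of_apply, Pi.zero_apply]
        rw [← h]
        simp only [Finset.mul_sum]
        rw [Finset.sum_comm]
        have : ∀ t, ∑ p, K p s'.1 * ((if p = N (t, q') then 1 else 0) * rt (t, q')) =
            K (N (t, q')) s'.1 * rt (t, q') := by
          intro t
          rw [Finset.sum_eq_single (N (t, q'))]
          · rw [if_pos rfl, one_mul]
          · intro p _ hp
            rw [if_neg hp, zero_mul, mul_zero]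
          · intro h'
            exact absurd (Finset.mem_univ _) h'
        rw [Finset.sum_congr rfl fun t _ => this t]
        have key : ∑ t, K (N (t, q')) s'.1 * rt (t, q') =
            ∑ t ∈ Finset.univ.filter (fun t => (t, q') ∈ R), K (N (t, q')) s'.1 * rt (t, q') := by
          rw [Finset.sum_filter]
          refine Finset.sum_congr rfl fun t _ => ?_
          by_cases ht : (t, q') ∈ R
          · rw [if_pos ht]
          · rw [if_neg ht, show rt (t, q') = 0 from dif_neg ht, mul_zero]
        rw [key, Finset.sum_subtype (Finset.univ.filter (fun t => (t, q') ∈ R))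
          (p := fun t => (t, q') ∈ R) (by simp)]
        refine Finset.sum_congr rfl fun s _ => ?_
        rw [hN s.1 q' s.2, mul_comm]
      have h0 := Matrix.eq_zero_of_vecMul_eq_zero (hK2 q') hvec
      exact congrFun h0 ⟨t0, ht0⟩
    have hl0 : ∀ x, lt x = 0 := by
      rintro ⟨p, q0⟩
      by_cases hq0 : (p, q0) ∈ P
      swap
      · exact dif_neg hq0
      have hvec : Matrix.vecMul (fun s : {q // (p, q) ∈ P} => lt (p, s.1))
          (Matrix.of fun s s' : {q // (p, q) ∈ P} => F s.1 (m p s')) = 0 := by
        ext s'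
        have h := e1 p (m p s') (hm2 p s').2
        simp only [hr0, mul_zero, Finset.sum_const_zero, add_zero] at h
        rw [Matrix.vecMul, dotProduct]
        simp only [Matrix.of_apply, Pi.zero_apply]
        rw [← h]
        have key : ∑ q, F q (m p s') * lt (p, q) =
            ∑ q ∈ Finset.univ.filter (fun q => (p, q) ∈ P), F q (m p s') * lt (p, q) := by
          rw [Finset.sum_filter]
          refine Finset.sum_congr rfl fun q _ => ?_
          by_cases hq : (p, q) ∈ P
          · rw [if_pos hq]
          · rw [if_neg hq, show lt (p, q) = 0 from dif_neg hq, mul_zero]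
        rw [key, Finset.sum_subtype (Finset.univ.filter (fun q => (p, q) ∈ P))
          (p := fun q => (p, q) ∈ P) (by simp)]
        exact Finset.sum_congr rfl fun s _ => mul_comm _ _
      have h0 := Matrix.eq_zero_of_vecMul_eq_zero (hF2 p) hvec
      exact congrFun h0 ⟨q0, hq0⟩
    funext x
    rcases x with x | x
    · have := hl0 x.1
      rw [show lt x.1 = v (Sum.inl ⟨x.1, x.2⟩) from dif_pos x.2] at this
      exact this
    · have := hr0 x.1
      rw [show rt x.1 = v (Sum.inr ⟨x.1, x.2⟩) from dif_pos x.2] at this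
      exact this
  have := LinearMap.finrank_le_finrank_of_injective hinj
  simpa [Module.finrank_fintype_fun_eq_card, Fintype.card_sum, Fintype.card_coe] using this

end Vale.Agent.P038.H724
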