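import Vale.Agent.P038.H724.Rot
import Vale.Agent.P038.H38.Strong

/-!
# P038 (H724): the inequality (OPT) for all positive real weights
-/

namespace Vale.Agent.P038.H724

open Finset Vale.Agent.P038.H139 Vale.Agent.P038.H38

universe u

variable {V : Type u} [Fintype V] [DecidableEq V]

/-- outer feasible pairs -/
structure Feas (D : OGraph V) (B C : V → Finset V) : Prop where
  left : ∀ a b, RR D a b → b ∈ B a
  right : ∀ a b, RR D a b → b ∈ C a
  orth : ∀ a b, b ∈ B a → a ∈ C b → a = b

/-- boundary energy -/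
noncomputable def out (D : OGraph V) (w : V → ℕ) (P : V → Finset V) : ℕ := ∑ a, w a * cw w (cl D (P a) \ P a)

theorem en_cl (D : OGraph V) (w : V → ℕ) (P : V → Finset V) :
    en w (fun a => cl D (P a)) = en w P + out D w P := by
  unfold en out
  rw [← Finset.sum_add_distrib]
  refine Finset.sum_congr rfl fun a _ => ?_
  rw [← mul_add, ← cw_union Finset.disjoint_sdiff, Finset.union_sdiff_of_subset]
  exact subset_cl D (P a)

theorem hall_of_opt {D : OGraph V} {w : V → ℕ} (hw : ∀ v, 0 < w v) {B C : V → Finset V}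
    (h : Feas D B C)
    (hmin : ∀ B' : V → Finset V, Feas D B' C → out D w B ≤ out D w B') (a : V) :
    Hall D w (B a) (fun s => a ∉ C s) := by
  classical
  intro S hS hd
  set B' := Function.update B a (B a ∪ S) with hB'
  have hf : Feas D B' C := by
    refine ⟨fun x y hxy => ?_, h.right, fun x y hy hx => ?_⟩
    · by_cases hxa : x = a
      · subst hxa
        rw [hB', Function.update_self]
        exact Finset.mem_union_left _ (h.left _ _ hxy)
      · rw [hB', Function.update_of_ne hxa]
        exact h.left _ _ hxy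
    · by_cases hxa : x = a
      · subst hxa
        rw [hB', Function.update_self, Finset.mem_union] at hy
        rcases hy with hy | hy
        · exact h.orth _ _ hy hx
        · exact absurd hx (hS y hy)
      · rw [hB', Function.update_of_ne hxa] at hy
        exact h.orth _ _ hy hx
  have h1 := hmin B' hf
  unfold out at h1
  rw [← Finset.add_sum_erase _ _ (Finset.mem_univ a), ← Finset.add_sum_erase
    (f := fun a => w a * cw w (cl D (B' a) \ B' a)) _ (Finset.mem_univ a)] at h1
  have h2 : ∑ x ∈ Finset.univ.erase a, w x * cw w (cl D (B' x) \ B' x) =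
      ∑ x ∈ Finset.univ.erase a, w x * cw w (cl D (B x) \ B x) := by
    refine Finset.sum_congr rfl fun x hx => ?_
    rw [hB', Function.update_of_ne (Finset.ne_of_mem_erase hx)]
  rw [h2] at h1
  have h3 : cw w (cl D (B a) \ B a) ≤ cw w (cl D (B a ∪ S) \ (B a ∪ S)) := by
    have h4 := Nat.le_of_add_le_add_right h1
    have h5 : B' a = B a ∪ S := by rw [hB', Function.update_self]
    simp only [h5] at h4
    exact Nat.le_of_mul_le_mul_left h4 (hw a)
  have e1 : cw w (cl D (B a)) = cw w (B a) + cw w (cl D (B a) \ B a) := by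
    rw [← cw_union Finset.disjoint_sdiff, Finset.union_sdiff_of_subset (subset_cl D (B a))]
  have e2 : cw w (cl D (B a ∪ S)) =
      cw w (B a ∪ S) + cw w (cl D (B a ∪ S) \ (B a ∪ S)) := by
    rw [← cw_union Finset.disjoint_sdiff, Finset.union_sdiff_of_subset (subset_cl D (B a ∪ S))]
  have e3 : cw w (B a ∪ S) = cw w (B a) + cw w S := cw_union hd.symm
  have e4 : cw w (cl D (B a ∪ S)) = cw w (cl D (B a)) + cw w (cl D S \ cl D (B a)) := by
    rw [cl_union, ← cw_union Finset.disjoint_sdiff, Finset.union_sdiff_self_eq_union]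
  omega

/-- For natural weights: every outer feasible pair is beaten by an orthogonal pair. -/
theorem nat_version (D : OGraph V) (w : V → ℕ) (hw : ∀ v, 0 < w v) (B C : V → Finset V)
    (h : Feas D B C) : ∃ X Y : V → Finset V, Orth D X Y ∧
      out D w X + out D w Y ≤ out D w B + out D w C := by
  classical
  obtain ⟨⟨B', C'⟩, hBC, hmin⟩ := Set.exists_min_image
    {p : (V → Finset V) × (V → Finset V) | Feas D p.1 p.2} (fun p => out D w p.1 + out D w p.2)
    (Set.toFinite _) ⟨(B, C), h⟩
  have hBC' : Feas D B' C' := hBC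
  have swap : ∀ {P Q : V → Finset V}, Feas D P Q → Feas D Q P := fun hPQ =>
    ⟨hPQ.right, hPQ.left, fun a b ha hb => (hPQ.orth b a hb ha).symm⟩
  have hB := hall_of_opt hw hBC' fun B'' hB'' => by
    have := hmin (B'', C') hB''
    simp only at this
    omega
  have hC := hall_of_opt hw (swap hBC') fun C'' hC'' => by
    have := hmin (B', C'') (swap hC'')
    simp only at this
    omega
  set X : V → Finset V := fun z => Finset.univ.filter fun s => ∀ a, RR D a z → s ∈ B' a with hX
  set Y : V → Finset V := fun z => Finset.univ.filter fun s => ∀ a, RR D a z → s ∈ C' a with hY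
  have hX' : ∀ z s, s ∈ X z ↔ ∀ a, RR D a z → s ∈ B' a := fun z s => by simp [hX]
  have hY' : ∀ z s, s ∈ Y z ↔ ∀ a, RR D a z → s ∈ C' a := fun z s => by simp [hY]
  obtain ⟨k1, k2⟩ := shift_le B' C' X Y hBC'.left hBC'.right hBC'.orth hX' hY' hB hC
  refine ⟨X, Y, ⟨fun a => (hX' a a).2 fun b hb => hBC'.left b a hb,
    fun a => (hY' a a).2 fun b hb => hBC'.right b a hb,
    fun a x hax h1 h2 => hax (k1 a x h1 h2)⟩, ?_⟩
  rw [en_cl, en_cl, en_cl, en_cl] at k2
  have := hmin (B, C) h
  simp only at this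
  omega

omit [Fintype V] [DecidableEq V] in
theorem W_cast (w : V → ℕ) (x : ℝ) (S : Finset V) :
    W (fun v => (w v : ℝ) / x) S = ((cw w S : ℕ) : ℝ) / x := by
  unfold W cw
  rw [← Finset.sum_div, Nat.cast_sum]

theorem L1_eq (D : OGraph V) (S : Finset V) : L1 D S = cl D S \ S := by
  ext z
  rw [mem_L1', Finset.mem_sdiff]

theorem L2_eq (D : OGraph V) (S : Finset V) : L2 D S = L1 D (cl D S) := by
  ext z
  rw [mem_L2, mem_L1']

theorem En_cast (D : OGraph V) (w : V → ℕ) (x : ℝ) (P : V → Finset V) :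
    En D (fun v => (w v : ℝ) / x) P = ((out D w P : ℕ) : ℝ) / x / x := by
  unfold En out
  push_cast
  rw [Finset.sum_div, Finset.sum_div]
  refine Finset.sum_congr rfl fun a _ => ?_
  rw [W_cast, L1_eq]
  ring

theorem En_cont (D : OGraph V) (P : V → Finset V) : Continuous fun w : V → ℝ => En D w P := by
  unfold En W
  fun_prop

theorem real_version (D : OGraph V) (w : V → ℝ) (hw : ∀ v, 0 < w v) (B C : V → Finset V)
    (h : Feas D B C) : ∃ X Y : V → Finset V, Orth D X Y ∧
      En D w X + En D w Y ≤ En D w B + En D w C := by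
  classical
  by_contra hcon
  push Not at hcon
  have hopen : IsOpen {u : V → ℝ | ∀ p : {p : (V → Finset V) × (V → Finset V) // Orth D p.1 p.2},
      En D u B + En D u C < En D u p.1.1 + En D u p.1.2} := by
    rw [Set.ofPred_forall]
    refine isOpen_iInter_of_finite fun p => ?_
    exact isOpen_lt ((En_cont D B).add (En_cont D C))
      ((En_cont D p.1.1).add (En_cont D p.1.2))
  have ht : Filter.Tendsto (fun x : ℝ => fun v => ((⌈w v * x⌉₊ : ℕ) : ℝ) / x) Filter.atTop
      (nhds w) := by
    rw [tendsto_pi_nhds]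
    exact fun v => tendsto_nat_ceil_mul_div_atTop (hw v).le
  have hev := ht.eventually (hopen.mem_nhds (fun p => hcon p.1.1 p.1.2 p.2))
  obtain ⟨x, hx1, hx2⟩ := (hev.and (Filter.eventually_gt_atTop (0 : ℝ))).exists
  obtain ⟨X, Y, hXY, hle⟩ := nat_version D (fun v => ⌈w v * x⌉₊)
    (fun v => Nat.ceil_pos.2 (mul_pos (hw v) hx2)) B C h
  have h1 := hx1 ⟨(X, Y), hXY⟩
  simp only [En_cast] at h1
  have h2 : ((out D (fun v => ⌈w v * x⌉₊) X : ℕ) : ℝ) + (out D (fun v => ⌈w v * x⌉₊) Y : ℕ) ≤
      (out D (fun v => ⌈w v * x⌉₊) B : ℕ) + (out D (fun v => ⌈w v * x⌉₊) C : ℕ) := by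
    exact_mod_cast hle
  rw [← add_div, ← add_div, ← add_div, ← add_div] at h1
  have h3 := (div_lt_div_iff_of_pos_right hx2).1 ((div_lt_div_iff_of_pos_right hx2).1 h1)
  linarith

/-- **(OPT)** holds for every oriented graph and all positive weights. -/
theorem opt_all (D : OGraph V) (w : V → ℝ) (hw : ∀ v, 0 < w v) : OPT D w := by
  intro Y Z hYZ hmin
  have hf : Feas D (fun a => cl D (Y a)) (fun a => cl D (Z a)) := by
    refine ⟨fun a b hab => mem_cl'.2 ⟨a, hYZ.left a, hab⟩, fun a b hab =>
      mem_cl'.2 ⟨a, hYZ.right a, hab⟩, fun a b hb ha => ?_⟩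
    by_contra hne
    exact hYZ.orth a b hne hb ha
  obtain ⟨X, X', hX, hle⟩ := real_version D w hw _ _ hf
  have h1 := hmin X X' hX
  have e : ∀ P : V → Finset V, ∑ a, w a * W w (L2 D (P a)) = En D w (fun a => cl D (P a)) := by
    intro P
    unfold En
    exact Finset.sum_congr rfl fun a _ => by rw [L2_eq]
  rw [e, e]
  exact h1.trans hle

end Vale.Agent.P038.H724
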