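import Vale.Agent.P038.H724.Gen
import Vale.Agent.P038.H139.Steps

/-!
# P038 (H724): the shift of an optimal outer pair, natural weights
-/

namespace Vale.Agent.P038.H724

open Finset Vale.Agent.P038.H139

universe u

variable {V : Type u} [Fintype V] [DecidableEq V]

/-- natural weight of a set -/
def cw (w : V → ℕ) (S : Finset V) : ℕ := ∑ v ∈ S, w v

omit [Fintype V] in
theorem cw_union {w : V → ℕ} {S T : Finset V} (h : Disjoint S T) :
    cw w (S ∪ T) = cw w S + cw w T := Finset.sum_union h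

omit [Fintype V] [DecidableEq V] in
theorem cw_mono {w : V → ℕ} {S T : Finset V} (h : S ⊆ T) : cw w S ≤ cw w T :=
  Finset.sum_le_sum_of_subset h

/-- closed arc relation -/
def RR (D : OGraph V) (a b : V) : Prop := a = b ∨ D.arc a b

omit [DecidableEq V] in
theorem mem_cl' {D : OGraph V} {S : Finset V} {z : V} : z ∈ cl D S ↔ ∃ y ∈ S, RR D y z := by
  rw [mem_cl]
  constructor
  · rintro (h | ⟨y, hy, h⟩)
    · exact ⟨z, h, Or.inl rfl⟩
    · exact ⟨y, hy, Or.inr h⟩
  · rintro ⟨y, hy, h | h⟩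
    · exact Or.inl (h ▸ hy)
    · exact Or.inr ⟨y, hy, h⟩

/-- Hall condition of one row -/
def Hall (D : OGraph V) (w : V → ℕ) (B : Finset V) (U : V → Prop) : Prop :=
  ∀ S : Finset V, (∀ s ∈ S, U s) → Disjoint S B → cw w S ≤ cw w (cl D S \ cl D B)

/-- The Hall conditions are inherited by intersections. -/
theorem hall_inter {D : OGraph V} {w : V → ℕ} (B : V → Finset V) (U : V → V → Prop) (I : Finset V)
    (hI : ∀ a ∈ I, Hall D w (B a) (U a)) :
    ∀ S : Finset V, (∀ s ∈ S, ∀ a ∈ I, U a s) →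
      Disjoint S (Finset.univ.filter fun s => ∀ a ∈ I, s ∈ B a) →
      cw w S ≤ cw w (cl D S \ cl D (Finset.univ.filter fun s => ∀ a ∈ I, s ∈ B a)) := by
  induction I using Finset.induction_on with
  | empty =>
    intro S _ hd
    have : S = ∅ := by
      rw [Finset.eq_empty_iff_forall_notMem]
      intro s hs
      exact Finset.disjoint_left.1 hd hs (by simp)
    subst this
    simp [cw]
  | insert a I ha ih =>
    intro S hU hd
    set X := Finset.univ.filter fun s => ∀ b ∈ insert a I, s ∈ B b with hX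
    set X' := Finset.univ.filter fun s => ∀ b ∈ I, s ∈ B b with hX'
    have hXX' : X ⊆ X' := by
      intro s hs
      rw [hX, Finset.mem_filter] at hs
      exact Finset.mem_filter.2 ⟨Finset.mem_univ _, fun b hb => hs.2 b (Finset.mem_insert_of_mem hb)⟩
    have hXB : X ⊆ B a := by
      intro s hs
      rw [hX, Finset.mem_filter] at hs
      exact hs.2 a (Finset.mem_insert_self a I)
    have h1 : cw w (S \ B a) ≤ cw w (cl D (S \ B a) \ cl D (B a)) :=
      hI a (Finset.mem_insert_self a I) (S \ B a)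
        (fun s hs => hU s (Finset.mem_sdiff.1 hs).1 a (Finset.mem_insert_self a I))
        Finset.sdiff_disjoint
    have h2 : cw w (S ∩ B a) ≤ cw w (cl D (S ∩ B a) \ cl D X') := by
      refine ih (fun b hb => hI b (Finset.mem_insert_of_mem hb)) (S ∩ B a)
        (fun s hs b hb => hU s (Finset.mem_inter.1 hs).1 b (Finset.mem_insert_of_mem hb)) ?_
      rw [Finset.disjoint_left]
      intro s hs hs'
      refine Finset.disjoint_left.1 hd (Finset.mem_inter.1 hs).1 ?_
      rw [hX, Finset.mem_filter]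
      refine ⟨Finset.mem_univ _, fun b hb => ?_⟩
      rcases Finset.mem_insert.1 hb with rfl | hb
      · exact (Finset.mem_inter.1 hs).2
      · rw [hX', Finset.mem_filter] at hs'
        exact hs'.2 b hb
    have h3 : cw w S = cw w (S \ B a) + cw w (S ∩ B a) := by
      rw [← cw_union (Finset.disjoint_sdiff_inter S (B a)), Finset.sdiff_union_inter]
    have h4 : Disjoint (cl D (S \ B a) \ cl D (B a)) (cl D (S ∩ B a) \ cl D X') := by
      rw [Finset.disjoint_left]
      intro s hs hs'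
      exact (Finset.mem_sdiff.1 hs).2 (cl_mono Finset.inter_subset_right (Finset.mem_sdiff.1 hs').1)
    have h5 : (cl D (S \ B a) \ cl D (B a)) ∪ (cl D (S ∩ B a) \ cl D X') ⊆ cl D S \ cl D X := by
      intro s hs
      rw [Finset.mem_union, Finset.mem_sdiff, Finset.mem_sdiff] at hs
      rw [Finset.mem_sdiff]
      rcases hs with ⟨hs1, hs2⟩ | ⟨hs1, hs2⟩
      · exact ⟨cl_mono Finset.sdiff_subset hs1, fun h => hs2 (cl_mono hXB h)⟩
      · exact ⟨cl_mono Finset.inter_subset_left hs1, fun h => hs2 (cl_mono hXX' h)⟩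
    have h6 := cw_mono (w := w) h5
    rw [cw_union h4] at h6
    omega

/-- the blow-up -/
abbrev Bl (w : V → ℕ) : Type u := Σ v : V, Fin (w v)

theorem card_bl (w : V → ℕ) (S : Finset V) :
    (Finset.univ.filter fun y : Bl w => y.1 ∈ S).card = cw w S := by
  have : (Finset.univ.filter fun y : Bl w => y.1 ∈ S) =
      S.sigma fun v => (Finset.univ : Finset (Fin (w v))) := by
    ext y
    simp
  rw [this, Finset.card_sigma, cw]
  simp

/-- product weight of a set of pairs -/
def mu (w : V → ℕ) (Z : Finset (V × V)) : ℕ := ∑ x ∈ Z, w x.1 * w x.2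

theorem card_bl2 (w : V → ℕ) (Z : Finset (V × V)) :
    (Finset.univ.filter fun y : Bl w × Bl w => (y.1.1, y.2.1) ∈ Z).card = mu w Z := by
  have h1 : ∑ x ∈ Z, w x.1 * w x.2 = ∑ x : V × V, if x ∈ Z then w x.1 * w x.2 else 0 := by
    rw [Finset.sum_ite_mem, Finset.univ_inter]
  rw [mu, h1, Finset.card_filter, Fintype.sum_prod_type, Fintype.sum_prod_type, Fintype.sum_sigma]
  refine Finset.sum_congr rfl fun v _ => ?_
  have h2 : ∀ i : Fin (w v), (∑ y : Bl w, if (v, y.1) ∈ Z then 1 else 0) =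
      ∑ v', w v' * (if (v, v') ∈ Z then 1 else 0) := by
    intro i
    rw [Fintype.sum_sigma]
    refine Finset.sum_congr rfl fun v' _ => ?_
    split_ifs <;> simp
  have h3 : (∑ i : Fin (w v), ∑ y : Bl w, if (((⟨v, i⟩ : Bl w), y).1.1, ((⟨v, i⟩ : Bl w), y).2.1) ∈ Z
      then 1 else 0) = ∑ i : Fin (w v), ∑ v', w v' * (if (v, v') ∈ Z then 1 else 0) :=
    Finset.sum_congr rfl fun i _ => h2 i
  rw [h3, Finset.sum_const, Finset.card_univ, Fintype.card_fin, smul_eq_mul, Finset.mul_sum]
  refine Finset.sum_congr rfl fun v' _ => ?_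
  split_ifs <;> ring

/-- Matching in the blow-up. -/
theorem match_of {D : OGraph V} {w : V → ℕ} (S0 : V → Prop) (A : Finset V)
    (H : ∀ S : Finset V, (∀ s ∈ S, S0 s) → cw w S ≤ cw w (cl D S \ A)) (Q : Bl w → Prop)
    (hQ : ∀ q, Q q → S0 q.1) :
    ∃ m : {q : Bl w // Q q} → Bl w, Function.Injective m ∧
      ∀ q, RR D q.1.1 (m q).1 ∧ (m q).1 ∉ A := by
  classical
  have h := (Finset.all_card_le_biUnion_card_iff_exists_injective
    (fun q : {q : Bl w // Q q} => Finset.univ.filter fun y : Bl w => RR D q.1.1 y.1 ∧ y.1 ∉ A)).1 ?_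
  · obtain ⟨m, hm1, hm2⟩ := h
    exact ⟨m, hm1, fun q => (Finset.mem_filter.1 (hm2 q)).2⟩
  · intro s
    set S : Finset V := s.image fun q => q.1.1 with hS
    have h1 : s.card ≤ cw w S := by
      rw [← card_bl w S, ← Finset.card_map (Function.Embedding.subtype Q)]
      refine Finset.card_le_card fun y hy => ?_
      obtain ⟨q, hq, rfl⟩ := Finset.mem_map.1 hy
      exact Finset.mem_filter.2 ⟨Finset.mem_univ _, Finset.mem_image.2 ⟨q, hq, rfl⟩⟩
    have h2 : cw w S ≤ cw w (cl D S \ A) := by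
      refine H S fun v hv => ?_
      obtain ⟨q, _, rfl⟩ := Finset.mem_image.1 hv
      exact hQ q.1 q.2
    have h3 : cw w (cl D S \ A) ≤ (s.biUnion fun q : {q : Bl w // Q q} =>
        Finset.univ.filter fun y : Bl w => RR D q.1.1 y.1 ∧ y.1 ∉ A).card := by
      rw [← card_bl]
      refine Finset.card_le_card fun y hy => ?_
      obtain ⟨hy1, hy2⟩ := Finset.mem_sdiff.1 (Finset.mem_filter.1 hy).2
      obtain ⟨x, hx, hxy⟩ := mem_cl'.1 hy1
      obtain ⟨q, hq, rfl⟩ := Finset.mem_image.1 hx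
      exact Finset.mem_biUnion.2 ⟨q, hq, Finset.mem_filter.2 ⟨Finset.mem_univ _, hxy, hy2⟩⟩
    exact h1.trans (h2.trans h3)

/-- energy of a relation given by rows -/
def en (w : V → ℕ) (P : V → Finset V) : ℕ := ∑ a, w a * cw w (P a)

theorem en_eq (w : V → ℕ) (P : V → Finset V) :
    en w P = ∑ a, ∑ b, if b ∈ P a then w a * w b else 0 := by
  unfold en cw
  refine Finset.sum_congr rfl fun a _ => ?_
  rw [Finset.mul_sum, Finset.sum_ite_mem, Finset.univ_inter]

theorem en_eq' (w : V → ℕ) (P : V → Finset V) :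
    en w P = ∑ a, ∑ b, if a ∈ P b then w a * w b else 0 := by
  rw [en_eq, Finset.sum_comm]
  refine Finset.sum_congr rfl fun a _ => Finset.sum_congr rfl fun b _ => ?_
  rw [mul_comm]

theorem mu_eq (w : V → ℕ) (Z : Finset (V × V)) :
    mu w Z = ∑ a, ∑ b, if (a, b) ∈ Z then w a * w b else 0 := by
  rw [mu, ← Fintype.sum_prod_type', ← Finset.sum_filter]
  · simp
  
/-- pairs missed by both relations -/
def miss (P Q : V → Finset V) : Finset (V × V) :=
  Finset.univ.filter fun x => x.2 ∉ P x.1 ∧ x.1 ∉ Q x.2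

theorem count (w : V → ℕ) (P Q : V → Finset V) (hP : ∀ a, a ∈ P a) (hQ : ∀ a, a ∈ Q a)
    (hPQ : ∀ a b, b ∈ P a → a ∈ Q b → a = b) :
    mu w (miss P Q) + en w P + en w Q =
      ∑ a, ∑ b, (w a * w b + if a = b then w a * w b else 0) := by
  rw [mu_eq, en_eq, en_eq', ← Finset.sum_add_distrib, ← Finset.sum_add_distrib]
  refine Finset.sum_congr rfl fun a _ => ?_
  rw [← Finset.sum_add_distrib, ← Finset.sum_add_distrib]
  refine Finset.sum_congr rfl fun b _ => ?_
  by_cases h1 : b ∈ P a <;> by_cases h2 : a ∈ Q b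
  · have := hPQ a b h1 h2
    subst this
    simp [miss, h1, h2]
  · have : a ≠ b := fun h => h2 (h ▸ hQ a)
    simp [miss, h1, h2, this]
  · have : a ≠ b := fun h => h1 (h ▸ hP a)
    simp [miss, h1, h2, this]
  · have : a ≠ b := fun h => h1 (h ▸ hP a)
    simp [miss, h1, h2, this]

/-- **The shift theorem.** -/
theorem shift_le {D : OGraph V} {w : V → ℕ} (B C X Y : V → Finset V)
    (hBr : ∀ a b, RR D a b → b ∈ B a) (hCr : ∀ a b, RR D a b → b ∈ C a)
    (hBC : ∀ a b, b ∈ B a → a ∈ C b → a = b)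
    (hX : ∀ z s, s ∈ X z ↔ ∀ a, RR D a z → s ∈ B a)
    (hY : ∀ z s, s ∈ Y z ↔ ∀ a, RR D a z → s ∈ C a)
    (hB : ∀ a, Hall D w (B a) (fun s => a ∉ C s)) (hC : ∀ a, Hall D w (C a) (fun s => a ∉ B s)) :
    (∀ a b, b ∈ cl D (X a) → a ∈ cl D (Y b) → a = b) ∧
    en w (fun a => cl D (X a)) + en w (fun a => cl D (Y a)) + en w B + en w C ≤
      en w (fun a => cl D (B a)) + en w (fun a => cl D (C a)) + en w X + en w Y := by
  classical
  have hrefl : ∀ a : V, RR D a a := fun a => Or.inl rfl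
  have hXB : ∀ a z, RR D a z → X z ⊆ B a := fun a z h s hs => (hX z s).1 hs a h
  have hYC : ∀ a z, RR D a z → Y z ⊆ C a := fun a z h s hs => (hY z s).1 hs a h
  have hXs : ∀ a, a ∈ X a := fun a => (hX a a).2 fun b hb => hBr b a hb
  have hYs : ∀ a, a ∈ Y a := fun a => (hY a a).2 fun b hb => hCr b a hb
  have scl : ∀ (S : Finset V) (v : V), v ∈ S → v ∈ cl D S := fun S v hv =>
    mem_cl.2 (Or.inl hv)
  -- antisymmetry of the closed arc relation
  have anti : ∀ a b : V, RR D a b → RR D b a → a = b := by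
    rintro a b (h | h) (h' | h')
    · exact h
    · exact h
    · exact h'.symm
    · exact absurd h' (D.asymm _ _ h)
  -- the four intersections
  have c1 : ∀ a b, b ∈ X a → a ∈ cl D (C b) → a = b := by
    intro p q h1 h2
    obtain ⟨p', hp', hr⟩ := mem_cl'.1 h2
    have h3 := hBC p' q (hXB p' p hr h1) hp'
    subst h3
    have h4 : p' ∈ B p := hXB p p (hrefl p) h1
    have h5 : p ∈ C p' := hCr _ _ hr
    exact hBC p p' h4 h5
  have c2 : ∀ a b, b ∈ cl D (B a) → a ∈ Y b → a = b := by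
    intro p q h1 h2
    obtain ⟨q', hq', hr⟩ := mem_cl'.1 h1
    have h3 := hBC p q' hq' (hYC q' q hr h2)
    subst h3
    have h4 : p ∈ C q := hYC q q (hrefl q) h2
    exact hBC p q (hBr _ _ hr) h4
  have c3 : ∀ a b, b ∈ cl D (X a) → a ∈ cl D (Y b) → a = b := by
    intro p q h1 h2
    obtain ⟨q0, hq0, hr⟩ := mem_cl'.1 h1
    obtain ⟨p', hp', hr'⟩ := mem_cl'.1 h2
    -- `q0 ∈ B p'`, `p' ∈ C q0`
    have h3 := hBC p' q0 (hXB p' p hr' hq0) (hYC q0 q hr hp')
    subst h3
    -- `p' ∈ X p`, `p' ∈ Y q`, `p' → p`, `p' → q`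
    have h4 : p' ∈ B p := hXB p p (hrefl p) hq0
    have h5 : p ∈ C p' := hCr _ _ hr'
    have h6 := hBC p p' h4 h5
    subst h6
    have h7 : p ∈ C q := hYC q q (hrefl q) hp'
    exact hBC p q (hBr _ _ hr) h7
  refine ⟨c3, ?_⟩
  have kG := count w B C (fun a => hBr a a (hrefl a)) (fun a => hCr a a (hrefl a)) hBC
  have kL := count w X (fun a => cl D (C a)) hXs
    (fun a => scl _ _ (hCr a a (hrefl a))) c1
  have kR := count w (fun a => cl D (B a)) Y (fun a => scl _ _ (hBr a a (hrefl a))) hYs c2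
  have kM := count w (fun a => cl D (X a)) (fun a => cl D (Y a)) (fun a => scl _ _ (hXs a))
    (fun a => scl _ _ (hYs a)) c3
  have key : mu w (miss X fun a => cl D (C a)) + mu w (miss (fun a => cl D (B a)) Y) ≤
      mu w (miss (fun a => cl D (X a)) fun a => cl D (Y a)) + mu w (miss B C) := by
    rw [← card_bl2, ← card_bl2, ← card_bl2, ← card_bl2]
    have hIX : ∀ z, (Finset.univ.filter fun s => ∀ a ∈ Finset.univ.filter (fun a => RR D a z),
        s ∈ B a) = X z := by
      intro z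
      ext s
      simp [hX]
    have hIY : ∀ z, (Finset.univ.filter fun s => ∀ a ∈ Finset.univ.filter (fun a => RR D a z),
        s ∈ C a) = Y z := by
      intro z
      ext s
      simp [hY]
    refine core (fun q q' : Bl w => RR D q.1 q'.1) (fun p p' : Bl w => RR D p'.1 p.1) _ _ _ _
      (fun p q => q.1 ∈ cl D (X p.1)) (fun p q => q.1 ∈ B p.1) ?_ ?_ ?_ ?_ ?_ ?_
    · intro p q q' h1 h2
      simp only [miss, Finset.mem_filter, Finset.mem_univ, true_and] at h1 ⊢
      by_cases h3 : q'.1 ∈ cl D (X p.1)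
      · exact Or.inr h3
      · refine Or.inl ⟨h3, fun h4 => ?_⟩
        obtain ⟨p', hp', hr⟩ := mem_cl'.1 h4
        exact h1.2 (mem_cl'.2 ⟨p', hYC _ _ h2 hp', hr⟩)
    · intro p p' q h1 h2 h3
      simp only [miss, Finset.mem_filter, Finset.mem_univ, true_and] at h3
      exact h3.1 (cl_mono (hXB _ _ h2) h1)
    · intro p p' q h1 h2
      simp only [miss, Finset.mem_filter, Finset.mem_univ, true_and] at h1 ⊢
      by_cases h3 : q.1 ∈ B p'.1
      · exact Or.inr h3
      · exact Or.inl ⟨h3, fun h4 => h1.2 (mem_cl'.2 ⟨_, h4, h2⟩)⟩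
    · intro p q q' h1 h2 h3
      simp only [miss, Finset.mem_filter, Finset.mem_univ, true_and] at h3
      exact h3.1 (mem_cl'.2 ⟨_, h1, h2⟩)
    · intro p
      obtain ⟨m, hm1, hm2⟩ := match_of (D := D) (w := w)
        (fun s => s ∉ X p.1 ∧ p.1 ∉ cl D (C s)) (cl D (X p.1)) (by
          intro S hS
          have := hall_inter (D := D) (w := w) B (fun a s => a ∉ C s)
            (Finset.univ.filter fun a => RR D a p.1) (fun a _ => hB a) S
            (fun s hs a ha h => (hS s hs).2 (mem_cl'.2 ⟨a, h, (Finset.mem_filter.1 ha).2⟩))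
          rw [hIX] at this
          exact this (Finset.disjoint_left.2 fun s hs => (hS s hs).1))
        (fun q => (p, q) ∈ (Finset.univ.filter fun y : Bl w × Bl w =>
          (y.1.1, y.2.1) ∈ miss X fun a => cl D (C a)))
        (fun q hq => by
          simp only [miss, Finset.mem_filter, Finset.mem_univ, true_and] at hq
          exact hq)
      refine ⟨m, hm1, fun q => ⟨(hm2 q).1, ?_⟩⟩
      have hq := q.2
      simp only [miss, Finset.mem_filter, Finset.mem_univ, true_and] at hq ⊢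
      refine ⟨(hm2 q).2, fun h4 => ?_⟩
      obtain ⟨p', hp', hr⟩ := mem_cl'.1 h4
      exact hq.2 (mem_cl'.2 ⟨p', hYC _ _ (hm2 q).1 hp', hr⟩)
    · intro q
      obtain ⟨m, hm1, hm2⟩ := match_of (D := D) (w := w)
        (fun s => s ∉ Y q.1 ∧ q.1 ∉ cl D (B s)) (cl D (Y q.1)) (by
          intro S hS
          have := hall_inter (D := D) (w := w) C (fun a s => a ∉ B s)
            (Finset.univ.filter fun a => RR D a q.1) (fun a _ => hC a) S
            (fun s hs a ha h => (hS s hs).2 (mem_cl'.2 ⟨a, h, (Finset.mem_filter.1 ha).2⟩))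
          rw [hIY] at this
          exact this (Finset.disjoint_left.2 fun s hs => (hS s hs).1))
        (fun p => (p, q) ∈ (Finset.univ.filter fun y : Bl w × Bl w =>
          (y.1.1, y.2.1) ∈ miss (fun a => cl D (B a)) Y))
        (fun p hp => by
          simp only [miss, Finset.mem_filter, Finset.mem_univ, true_and] at hp
          exact ⟨hp.2, hp.1⟩)
      refine ⟨m, hm1, fun p => ⟨(hm2 p).1, ?_⟩⟩
      have hp := p.2
      simp only [miss, Finset.mem_filter, Finset.mem_univ, true_and] at hp ⊢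
      exact ⟨fun h4 => hp.1 (cl_mono (hXB _ _ (hm2 p).1) h4), (hm2 p).2⟩
  omega

end Vale.Agent.P038.H724
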